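import Vale.Agent.P210R.Sta
import Vale.Agent.P210U.Loc
import Vale.Agent.P210Y.Decay

/-!
# P210W: the construction of a sweep (helper53)
-/

set_option linter.all false

open Filter Topology Set
open scoped ContDiff
open Vale.Agent.P366M Vale.Agent.P366M.Gr Vale.Agent.P366M.Y.C Vale.Agent.P210G
open Vale.Agent.P210R
open Vale.Agent.P210U (Up)
open Finset (range)

noncomputable section

namespace Vale.Agent.P210W

section

variable {n : ℕ} {X : Type} [Mf0 n X]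

theorem up_gb (g : Fld n X) (w : X → ℝ) : Up g (gb g 1 w) := fun x ξ => by
  have e : ∑ i, ∑ j, gb g 1 w x i j * ξ i * ξ j =
      ∑ i, ∑ j, g x i j * ξ i * ξ j + (∑ i, pd i w x * ξ i) ^ 2 := by
    simp only [gb, sq, Finset.sum_mul_sum, ← Finset.sum_add_distrib, Pi.one_apply]
    exact Finset.sum_congr rfl fun _ _ => Finset.sum_congr rfl fun _ _ => by ring
  rw [e]
  exact le_add_of_nonneg_right (sq_nonneg _)

/-- sweeps by recursion -/
theorem exists_rec {S A : Type} (I : Fld n X → S → Prop)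
    (P : ℕ → Fld n X → S → (X → ℝ) → S → A → Prop)
    (H : ∀ j g v, I g v → ∃ t v' a, I (gb g 1 t) v' ∧ P j g v t v' a) {g : Fld n X} {v : S}
    (h0 : I g v) : ∃ (t : ℕ → X → ℝ) (vs : ℕ → S) (a : ℕ → A), vs 0 = v ∧
      ∀ j, P j (gs g t j) (vs j) (t j) (vs (j + 1)) (a j) := by
  choose T V' a h1 h2 using H
  let σ : ℕ → {p : Fld n X × S // I p.1 p.2} := fun j => Nat.rec ⟨(g, v), h0⟩
    (fun j p => ⟨(gb p.1.1 1 (T j _ _ p.2), V' j _ _ p.2), h1 j _ _ p.2⟩) j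
  have e : ∀ j, gs g (fun j => T j _ _ (σ j).2) j = (σ j).1.1 := fun j => by
    induction j with
    | zero => rfl
    | succ j ih => rw [gs, ih]
  refine ⟨fun j => T j _ _ (σ j).2, fun j => (σ j).1.2, fun j => a j _ _ (σ j).2, rfl, fun j => ?_⟩
  rw [e]
  exact h2 j _ _ (σ j).2

end

/-- one step with the truncation of the potential, the floor and the spring -/
theorem pstep (hG : GAM) (hL : LSTEP) : PSTEP := by
  obtain ⟨C, C1, hG⟩ := hG
  refine ⟨C, C1, fun n X _ _ g₀ ϱ c₀ hn hg₀ hϱ c0 => ?_⟩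
  obtain ⟨β₀, hL⟩ := hL n X g₀ ϱ c₀ hn hg₀ hϱ c0
  refine ⟨β₀, fun β hβ β0 θ Λ U V j K h q s η d g v θ0 hP sK nK sup alt q0 q1 s0 η0 d0 hg hup
    hv' => ?_⟩
  obtain ⟨h', O, F, oO, cF, FO, nF, hO, hA⟩ := hG n X g₀ θ Λ U V j h hg₀ θ0 hP
  have K0 : ∀ x ∈ O, K x = 0 := fun x hx => by
    by_contra k
    exact absurd (sup x k).2 (not_le.2 (hO x hx (sup x k).1))
  obtain ⟨L, L0, hd⟩ := P210Y.decay0 hg hv' (K := F ∩ {x | ϱ x ≤ 2}) (O := O ∩ {x | ϱ x < 3})
    (cF.inter (isClosed_le hϱ.cont continuous_const)).isCompact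
    (oO.inter (isOpen_lt hϱ.cont continuous_const))
    fun x hx => ⟨FO hx.1, lt_of_le_of_lt hx.2 (by norm_num : (2 : ℝ) < 3)⟩
  obtain ⟨A, A1, W, sW, WO, WU, Wb⟩ := hA ((L + 1 / d) / d + 1)
  have A2 : L + 1 / d < A * d := by
    have := mul_le_mul_of_nonneg_right A1 d0.le
    rw [add_mul, div_mul_cancel₀ _ d0.ne'] at this
    linarith
  have A0 : 0 < A := lt_of_lt_of_le (by positivity) A1
  obtain ⟨μ, μ0, μ1, μ2⟩ : ∃ μ > (0 : ℝ), μ * (A + 1) ^ 2 ≤ η ∧ μ ≤ d ^ 2 / 2 :=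
    ⟨min (η / (A + 1) ^ 2) (d ^ 2 / 2), by positivity,
      (le_div_iff₀ (by positivity)).1 (min_le_left _ _), min_le_right _ _⟩
  have old : ∀ x, K x ≠ 0 → W x = V j x := fun x k => (WU x (sup x k).1).1 (sup x k).2
  have cst : ∃ W₀ K₀, ∀ x, 0 < ϱ x → W x = W₀ ∧ K x = K₀ := by
    rcases alt with k | k
    · refine ⟨A, 0, fun x hx => ?_⟩
      have : x ∈ O := FO (by_contra fun k1 => k x hx (nF x k1).1)
      exact ⟨WO x this, K0 x this⟩
    · exact ⟨0, 1, fun x hx => ⟨(old x (by rw [(k x hx).2.2]; exact one_ne_zero)).trans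
        (k x hx).2.1, (k x hx).2.2⟩⟩
  obtain ⟨w, v', κ, sw, w0, cv', sκ, hκ, eqn, far, frz⟩ := hL β hβ β0 g v W
    (fun y => s * K y + μ) q (min η (d ^ 2 / 2)) hg hup hv' sW
    (CD.add (CD.mul cd_const sK) cd_const) (fun x => (Wb x).1)
    (fun x => add_pos_of_nonneg_of_pos (mul_nonneg s0.le (nK x)) μ0) q0 q1 (by positivity)
    (let ⟨a, b, k⟩ := cst; ⟨a, s * b + μ, fun x hx => ⟨(k x hx).1, by rw [(k x hx).2]⟩⟩)
  have m1 := min_le_left η (d ^ 2 / 2)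
  have m2 := mul_pos μ0 A0
  have m3 := mul_nonneg μ0.le (sq_nonneg A)
  refine ⟨h', μ, W, w, κ, v', sW, sw, sκ, cv', w0, fun x => (Wb x).1, fun x => (Wb x).2.2, old,
    fun x hx => (WU x hx).2, let ⟨a, _, k⟩ := cst; ⟨a, fun x hx => (k x hx).1⟩, μ0, by nlinarith,
    fun x => ?_, fun x => ?_, fun x => (hκ x).1, fun x => (hκ x).2.1, fun x => (hκ x).2.2, eqn,
    fun x hx => ⟨(far x hx).1.trans m1, (far x hx).2.1.trans m1, by linarith [(far x hx).2.2]⟩,
    frz, fun x hx => ?_⟩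
  · nlinarith [mul_le_mul_of_nonneg_right (Wb x).2.1 μ0.le]
  · nlinarith [mul_le_mul_of_nonneg_right (pow_le_pow_left₀ (Wb x).1 (Wb x).2.1 2) μ0.le]
  · have xF : x ∈ F := by_contra fun k => hx (nF x k)
    rcases le_total (ϱ x) 2 with k | k
    · obtain ⟨y, hy, k1, k2⟩ := hd x ⟨xF, k⟩ w sw
      refine k1.trans (not_lt.1 fun k3 => ?_)
      rw [(eqn y hy.2).2, Hf, WO y hy.1, K0 y hy.1, mul_zero, zero_add] at k2
      have u0 : 0 < uu g w y := P210Y.iw_pos hg w y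
      have u1 : uu g w y ≤ 1 := P210Y.iw_le hg w y
      have b1 : q * (1 - uu g w y) / w y ≤ 1 / d :=
        div_le_div₀ zero_le_one (by nlinarith) d0 k3.le
      have b2 : μ / w y ≤ w y := (div_le_iff₀ (w0 y)).2 (by nlinarith)
      have b3 := mul_nonneg (add_nonneg β0.le (hκ y).1) (sub_nonneg.2 b2)
      have b4 := mul_le_mul_of_nonneg_left k3.le A0.le
      linarith
    · have b1 := (abs_le.1 ((far x k).2.1.trans (min_le_right _ _))).2
      rw [K0 x (FO xF), mul_zero, zero_add] at b1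
      exact (abs_le_of_sq_le_sq' (by linarith) d0.le).2

end Vale.Agent.P210W
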