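import Vale.Agent.P210R.Sta
import Vale.Agent.P210D.Sw
import Vale.Agent.P210W.Sw1

/-!
# P210W: the rows `SW1` and `OUTER` (helper53)
-/

set_option linter.all false

open Filter Topology Set
open scoped ContDiff
open Vale.Agent.P366M Vale.Agent.P366M.Gr Vale.Agent.P366M.Y.C Vale.Agent.P210G
open Vale.Agent.P210R Vale.Agent.P210D
open Vale.Agent.P210U (Up)
open Finset (range)

noncomputable section

namespace Vale.Agent.P210W

theorem sw1R : SW1 := by
  intro n X _ g₀ ϱ Λ U V K m θ a α s η d g v hg₀ hg hup hv' hϱ hK H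
  obtain ⟨t, vs, b, e0, hb⟩ := exists_rec (A := ℝ × ℝ × (X → ℝ) × (X → ℝ))
    (fun g v => Met g ∧ Up g₀ g ∧ CC ∞ v)
    (fun j g v t v' b => (Smooth t ∧ (∀ x, 0 < t x) ∧ Smooth b.2.2.1 ∧ ∀ x, 0 ≤ b.2.2.1 x) ∧
      (j < m → Pst g₀ ϱ Λ (U j) (V j) (K j) θ (a / 10) (α / (2 * s)) (1 - a) s η d g v b.1 b.2.1
        b.2.2.1 t b.2.2.2 v'))
    (fun j g v ⟨h1, h2, h3⟩ => by
      by_cases k : j < m
      · obtain ⟨h', ε, W, w, κ, v', P⟩ := H j k g v h1 h2 h3
        exact ⟨w, v', (h', ε, W, κ), ⟨met_g h1 P.smw, h2.trans (up_gb g w), P.cc⟩,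
          ⟨P.smw, P.w0, P.smW, P.W0⟩, fun _ => P⟩
      · exact ⟨fun _ => 1, v, (0, 0, fun _ => 0, fun _ => 0), ⟨met_g h1 cd_const,
          h2.trans (up_gb g _), h3⟩, ⟨cd_const, fun _ => one_pos, cd_const, fun _ => le_rfl⟩,
          fun k' => (k k').elim⟩) (g := g) (v := v) ⟨hg, hup, hv'⟩
  exact ⟨_, _, _, t, _, vs, e0, hg₀, hg, hup, e0 ▸ hv', hϱ, hK, fun j => (hb j).1.1,
    fun j => (hb j).1.2.1, fun j => (hb j).1.2.2.1, fun j => (hb j).1.2.2.2, fun j => (hb j).2⟩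

section

variable {n : ℕ} {X : Type} [Mf0 n X] {g₀ g : Fld n X} {ϱ Λ : X → ℝ} {U : ℕ → Set X}
  {V K W t κ : ℕ → X → ℝ} {m : ℕ} {θ a α s η d : ℝ} {h' ε : ℕ → ℝ} {vs : ℕ → Fin n → X → ℝ} {x : X}
  (S : P210R.Swp g₀ ϱ Λ U V K m θ a α s η d g h' ε W t κ vs)
include S

theorem cc_vs : ∀ j ≤ m, CC ∞ (vs j)
  | 0, _ => S.cc
  | j + 1, h => (S.pst j h).cc

theorem ev3 (hx : ϱ x < 3) : ∀ᶠ y in 𝓝 x, ϱ y < 3 :=
  (S.smr.cont.tendsto x).eventually (gt_mem_nhds hx)

/-- the gains of the steps add up -/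
theorem sum_in (hx : ϱ x < 3) {b : ℕ → ℝ} (H : ∀ j < m, Rv (gs g t j) (vs j) x + b j ≤
    Rv (gb (gs g t j) 1 (t j)) (vg (gs g t j) (vs j) (t j)) x) :
    Rv g (vs 0) x + ∑ j ∈ range m, b j ≤ Rv (gs g t m) (vs m) x := by
  suffices k : ∀ l ≤ m, Rv g (vs 0) x + ∑ j ∈ range l, b j ≤ Rv (gs g t l) (vs l) x from k m le_rfl
  intro l hl
  induction l with
  | zero => simp [gs]
  | succ l ih =>
    rw [Finset.sum_range_succ, gs, Rv_congr fun i =>
      (ev3 S hx).mono fun y hy => ((S.pst l hl).ex y hy).1 i]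
    linarith [ih (by omega), H l hl]

/-- the divergence of the normals is the mean curvature -/
theorem Dv_nv (hx : ϱ x < 3) {j : ℕ} (hj : j ≤ m) :
    Dv (gs g t m) (vs m) (nv (gs g t j) (t j)) x = hv (gs g t j) (vs j) (t j) x := by
  have hY := (cv_nv (met_gs S.met S.smt j) (S.smt j)).dv (by simp) x
  suffices k : ∀ l, j ≤ l → l ≤ m → Dv (gs g t l) (vs l) (nv (gs g t j) (t j)) x =
    hv (gs g t j) (vs j) (t j) x from k m hj le_rfl
  intro l h1 h2
  induction l, h1 using Nat.le_induction with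
  | base => rfl
  | succ l _ ih =>
    rw [← ih (by omega), ← Dv_g (v := vs l) (met_gs S.met S.smt l) (S.smt l) hY]
    simp only [Dv, ev, ((S.pst l h2).ex x hx).1, gs]

theorem tt_le (x : X) : tt g t m x ≤ ∑ j ∈ range m, (1 - uu (gs g t j) (t j) x ^ 2) :=
  Finset.sum_le_sum fun j hj => by
    rw [← ip_g_self (met_gs S.met S.smt j)]
    exact iv_le S.met S.smt (j := j + 1) (Finset.mem_range.1 hj) (df (t j)) x

theorem aa_sq {r₀ : ℝ} (h : 0 ≤ r₀) (x : X) : aa g t m x ^ 2 ≤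
    (∑ j ∈ range m, P210R.yy (gs g t j) (t j) x ^ 2) * rr r₀ t m x := by
  have e : aa g t m x = ∑ j ∈ range m, P210R.yy (gs g t j) (t j) x * t j x :=
    Finset.sum_congr rfl fun j _ => by rw [P210R.yy, div_mul_cancel₀ _ (S.t0 j x).ne']
  rw [e]
  exact (Finset.sum_mul_sq_le_sq_mul_sq _ _ _).trans (mul_le_mul_of_nonneg_left
    (le_add_of_nonneg_left h) (Finset.sum_nonneg fun _ _ => sq_nonneg _))

end

/-- the real inequality of one outer step -/
theorem out_real {H y u W t k β κ q c b η : ℝ} (u0 : 0 < u) (u1 : u ≤ 1) (t0 : 0 < t) (W0 : 0 ≤ W)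
    (β0 : 0 ≤ β) (κ0 : 0 ≤ κ) (q0 : 0 ≤ q) (q1 : q ≤ 1) (y0 : 0 ≤ y) (c0 : 0 ≤ c) (c1 : c ≤ 1)
    (η0 : 0 ≤ η) (hH : H = -(q * y) + W * t + (β + κ) * (t - k / t)) (hW : W ^ 2 * k ≤ η)
    (hb : b ^ 2 ≤ (1 - u ^ 2) * (c * κ * (β + κ) ^ 2)) :
    2 * β * (1 - u ^ 2) - c * H ^ 2 - c * y ^ 2 - η ≤
      2 * (W + β + κ) * ((1 - u ^ 2) / u) + 2 * (t - k / t) * b := by
  have s0 : 0 ≤ 1 - u ^ 2 := by nlinarith
  have s1 : 1 - u ^ 2 ≤ (1 - u ^ 2) / u := le_div_self s0 u0 u1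
  have a1 : ((β + κ) * (t - k / t)) ^ 2 ≤ 2 * H ^ 2 + 2 * y ^ 2 + 2 * η := by
    have p1 : 0 ≤ W * t := by positivity
    have p2 : 0 ≤ q * y := by positivity
    have p3 : q * y ≤ y := mul_le_of_le_one_left y0 q1
    rcases le_total 0 (t - k / t) with h | h
    · have := mul_nonneg (add_nonneg β0 κ0) h
      generalize (β + κ) * (t - k / t) = D at *
      have p4 : D ^ 2 ≤ (H + y) ^ 2 := pow_le_pow_left₀ this (by linarith) 2
      nlinarith [sq_nonneg (H - y)]
    · have p5 : t ^ 2 ≤ k := by rw [sq, ← le_div_iff₀ t0]; linarith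
      have p6 : (W * t) ^ 2 ≤ η := by
        rw [mul_pow]; exact (mul_le_mul_of_nonneg_left p5 (sq_nonneg W)).trans hW
      have := mul_nonneg (add_nonneg β0 κ0) (neg_nonneg.2 h)
      rw [mul_neg] at this
      generalize (β + κ) * (t - k / t) = D at *
      have p4 : (-D) ^ 2 ≤ (W * t - H) ^ 2 := pow_le_pow_left₀ this (by linarith) 2
      nlinarith [sq_nonneg (H + W * t), sq_nonneg y]
  have a2 : -(2 * κ * (1 - u ^ 2) + c / 2 * ((β + κ) * (t - k / t)) ^ 2) ≤ 2 * (t - k / t) * b := by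
    refine (abs_le_of_sq_le_sq' ?_ (by positivity)).1
    have b3 := mul_le_mul_of_nonneg_right hb (sq_nonneg (t - k / t))
    nlinarith [sq_nonneg (2 * κ * (1 - u ^ 2) - c / 2 * ((β + κ) * (t - k / t)) ^ 2)]
  have a3 := mul_le_mul_of_nonneg_left a1 c0
  have a4 := mul_le_mul_of_nonneg_left s1 (by positivity : 0 ≤ W + β + κ)
  have a5 := mul_nonneg W0 s0
  have a6 := mul_le_of_le_one_left η0 c1
  linarith

theorem outer (hS : STEP) : OUTER := by
  intro n X _ g₀ ϱ Λ U V K m j₀ θ a α s η d g h' ε W t κ vs r₀ x S a0 a1 α0 s0 r0 hj hK r Sg A₀ Y H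
    er eS eA eY eH
  have hm := met_gs S.met S.smt
  have P0 := S.pst j₀ hj
  have tr : t j₀ x ^ 2 ≤ r := er ▸ (Finset.single_le_sum (f := fun j => t j x ^ 2)
    (fun _ _ => sq_nonneg _) (Finset.mem_range.2 hj)).trans (le_add_of_nonneg_left r0)
  have β0 : 0 < α / (2 * s) := by positivity
  refine ⟨fun x0 x3 => ?_, fun x2 => ?_, fun x4 => ?_⟩
  · have ev0 := (S.smr.cont.tendsto x).eventually (lt_mem_nhds x0)
    have Kc : ∀ j, ∃ c, (c = 0 ∨ (c = 1 ∧ j = j₀)) ∧ ∀ y, 0 < ϱ y → K j y = c := fun j => by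
      by_cases k : j = j₀
      · exact ⟨1, .inr ⟨rfl, k⟩, fun y hy => k ▸ (hK y hy).1⟩
      · exact ⟨0, .inl rfl, fun y hy => (hK y hy).2.2 j k⟩
    have W0 : W j₀ x = 0 :=
      (P0.old x (by rw [(hK x x0).1]; exact one_ne_zero)).trans (hK x x0).2.1
    have st : ∀ j < m, 0 ≤ hq (1 - a) (gs g t j) (t j) x ∧ Rv (gs g t j) (vs j) x +
        (hq (1 - a) (gs g t j) (t j) x + (1 - a / 10) * hv (gs g t j) (vs j) (t j) x ^ 2 +
          (2 * (1 - a) * a - a / 10) * P210R.yy (gs g t j) (t j) x ^ 2 +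
          α / s * (1 - uu (gs g t j) (t j) x ^ 2) - η) ≤
        Rv (gb (gs g t j) 1 (t j)) (vg (gs g t j) (vs j) (t j)) x := fun j hj => by
      have P := S.pst j hj
      obtain ⟨c, c1, c2⟩ := Kc j
      obtain ⟨c', c3⟩ := P.cst
      have d1 : ∀ i, pd i (fun y => s * K j y + ε j) x = 0 := pd_zero_of_ev (c := s * c + ε j)
        (ev0.mono fun y hy => by simp only [c2 y hy])
      have d2 : dn (gs g t j) (t j) (W j) x = 0 := by
        simp [dn_eq (hm j), pd_zero_of_ev (ev0.mono c3)]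
      have k0 : 0 ≤ s * K j x + ε j := add_nonneg (mul_nonneg s0.le (S.dis.nn j x)) P.e0.le
      obtain ⟨b1, b2⟩ := hS n X (gs g t j) (vs j) (t j) (W j) (fun y => s * K j y + ε j) (κ j)
        (1 - a) (α / (2 * s)) 0 x (hm j) (cc_vs S j hj.le) P.smw P.smW
        (CD.add (CD.mul cd_const (S.dis.sm j)) cd_const) P.smκ P.w0 k0
        (add_nonneg β0.le (P.k0 x)) (by linarith) (by linarith) le_rfl (by simp [ip, d1])
        ((ev3 S x3).mono fun y hy => (P.ex y hy).2)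
      have b3 := out_real (H := hv (gs g t j) (vs j) (t j) x) (y := P210R.yy (gs g t j) (t j) x)
        (k := s * K j x + ε j) (q := 1 - a) (c := a / 10) (b := dn (gs g t j) (t j) (κ j) x)
        (η := η) (uu_pos (hm j) (t j) x) (uu_le (hm j) (t j) x) (P.w0 x) (P.W0 x) β0.le (P.k0 x)
        (by linarith) (by linarith)
        (div_nonneg (sub_nonneg.2 (uu_le (hm j) (t j) x)) (P.w0 x).le) (by linarith) (by linarith)
        (P.e0.le.trans P.e1) (by rw [(P.ex x x3).2, Hf, P210R.yy, mul_div_assoc])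
        (by
          rcases c1 with k | ⟨-, k⟩
          · rw [c2 x x0, k, mul_zero, zero_add]; exact P.e3 x
          · subst k; rw [W0]; simpa using P.e0.le.trans P.e1)
        ((dn_sq (hm j) (w := fun _ => t j) (fun _ => P.smw) 0 (κ j) x).trans
          (mul_le_mul_of_nonneg_left (P.gk x) (sg_nn S.met S.smt j x)))
      have b4 : 2 * (α / (2 * s)) = α / s := by field_simp
      rw [b4] at b3
      rw [d2] at b2
      exact ⟨b1, by linarith⟩
    have eH' : H = ∑ j ∈ range m, hv (gs g t j) (vs j) (t j) x ^ 2 := eH.trans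
      (Finset.sum_congr rfl fun j hj => by rw [Dv_nv S x3 (Finset.mem_range.1 hj).le])
    refine ⟨eS ▸ tt_le S x, eS ▸ eA ▸ th_le_aa S.met S.smt m x, eA ▸ eY ▸ er ▸ aa_sq S r0 x,
      Finset.sum_nonneg fun j hj => (st j (Finset.mem_range.1 hj)).1, fun rs => ?_, ?_⟩
    · have b1 : hv (gs g t j₀) (vs j₀) (t j₀) x ^ 2 ≤ H := eH' ▸ Finset.single_le_sum
        (f := fun j => hv (gs g t j) (vs j) (t j) x ^ 2) (fun _ _ => sq_nonneg _)
        (Finset.mem_range.2 hj)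
      have t0 := P0.w0 x
      have b2 : α * (s - r) / (2 * s) ≤ -(hv (gs g t j₀) (vs j₀) (t j₀) x * t j₀ x) := by
        have e : hv (gs g t j₀) (vs j₀) (t j₀) x * t j₀ x =
            -((1 - a) * (1 - uu (gs g t j₀) (t j₀) x)) +
              (α / (2 * s) + κ j₀ x) * (t j₀ x ^ 2 - (s + ε j₀)) := by
          rw [(P0.ex x x3).2, Hf, W0, (hK x x0).1]
          field_simp
          ring
        have p1 := mul_nonneg (by linarith : 0 ≤ 1 - a) (sub_nonneg.2 (uu_le (hm j₀) (t j₀) x))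
        have p2 := mul_nonneg (P0.k0 x) (by linarith [P0.e0] : 0 ≤ s + ε j₀ - t j₀ x ^ 2)
        have p3 := mul_le_mul_of_nonneg_left
          (by linarith [P0.e0] : s - r ≤ s + ε j₀ - t j₀ x ^ 2) β0.le
        rw [e, mul_div_right_comm]
        linarith
      refine (pow_le_pow_left₀ (by have := sub_nonneg.2 rs; positivity) b2 2).trans ?_
      rw [neg_sq, mul_pow]
      exact mul_le_mul b1 tr (sq_nonneg _) ((sq_nonneg _).trans b1)
    · have k := sum_in S x3 fun j hj => (st j hj).2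
      simp only [Finset.sum_sub_distrib, Finset.sum_add_distrib, ← Finset.mul_sum,
        Finset.sum_const, Finset.card_range, nsmul_eq_mul] at k
      rw [eH', eY, eS]
      simp only [Finset.sum_sub_distrib, Finset.sum_const, Finset.card_range, nsmul_eq_mul]
      linarith
  · have b : ∀ j ∈ range m, ip (gs g t j) (t j) (t j) x ≤ η := fun j hj =>
      ((S.pst j (Finset.mem_range.1 hj)).sml x x2).1
    have tot : ∀ {f : ℕ → ℝ}, (∀ j ∈ range m, f j ≤ η) → ∑ j ∈ range m, f j ≤ m * η := fun h =>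
      (Finset.sum_le_card_nsmul _ _ η h).trans_eq (by simp)
    refine ⟨eA ▸ aa_nn S.met S.smt m x, eA ▸ (aa_le_th S.met S.smt m x).trans (tot fun j hj => ?_),
      tot fun j hj => (iv_le S.met S.smt (Finset.mem_range.1 hj).le (df (t j)) x).trans (b j hj),
      ?_, ?_⟩
    · rw [← ip_g_self (hm j)]
      exact (ip_g_le (hm j) _ _ x).trans (b j hj)
    · have k := (abs_le.1 (P0.sml x x2).2.1).1
      rw [(hK x (by linarith)).1] at k
      linarith [P0.e0]
    · suffices k : ∀ l ≤ m, Rv g (vs 0) x - l * η ≤ Rv (gs g t l) (vs l) x from k m le_rfl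
      intro l hl
      induction l with
      | zero => simp [gs]
      | succ l ih =>
        have := ((S.pst l hl).sml x x2).2.2
        rw [gs]
        push_cast
        linarith [ih (by omega)]
  · suffices k : ∀ l ≤ m, gs g t l x = g x ∧ ∀ i, vs l i x = vs 0 i x from k m le_rfl
    intro l hl
    induction l with
    | zero => simp [gs]
    | succ l ih =>
      have := (S.pst l hl).fz x x4
      exact ⟨this.1.trans (ih (by omega)).1, fun i => (this.2 i).trans ((ih (by omega)).2 i)⟩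

end Vale.Agent.P210W
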